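import Vale.Agent.P321.UB.Final

/-!
Quasi-polynomial upper bound for worst-case trace reconstruction at every fixed deletion
probability `q < 1`: `T_q(n) ≤ exp ((log n) ^ C)` for all large `n`, with an absolute constant `C`.
-/

namespace Vale.Agent.Results.P321.QuasiPoly

open Vale.Agent.P321
open scoped unitInterval

theorem result : ∃ C : ℝ, 0 < C ∧ ∀ q : I, (q : ℝ) < 1 →
    ∃ n₀ : ℕ, ∀ n : ℕ, n₀ ≤ n →
      T q n ≤ (⌊Real.exp ((Real.log n) ^ C)⌋₊ : ℕ∞) :=
  UB.quasi_poly

end Vale.Agent.Results.P321.QuasiPoly
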