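import Vale.Agent.P321.Bdl.B8
import Vale.Agent.P321.UB.Final

/-!
Two-sided bounds for worst-case trace reconstruction at every fixed deletion probability
`q ∈ (0, 1)`: `n ^ (c log log n) ≤ T_q(n) ≤ exp ((log n) ^ C)` for all large `n`, with absolute
constants `c, C > 0`.
-/

namespace Vale.Agent.Results.P321.TwoSided

open Vale.Agent.P321
open scoped unitInterval

theorem result : ∃ c C : ℝ, 0 < c ∧ 0 < C ∧ ∀ q : I, 0 < (q : ℝ) → (q : ℝ) < 1 →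
    ∃ n₀ : ℕ, ∀ n : ℕ, n₀ ≤ n →
      (⌈(n : ℝ) ^ (c * Real.log (Real.log n))⌉₊ : ℕ∞) ≤ T q n ∧
      T q n ≤ (⌊Real.exp ((Real.log n) ^ C)⌋₊ : ℕ∞) := by
  obtain ⟨C, hC, hup⟩ := UB.quasi_poly
  refine ⟨1 / 65536, C, by norm_num, hC, fun q h0 h1 => ?_⟩
  obtain ⟨n₁, hn₁⟩ := rate_T (MA.smallDS (A := 24) le_rfl) q h0 h1
  obtain ⟨n₂, hn₂⟩ := hup q h1
  exact ⟨n₁ + n₂, fun n hn => ⟨(hn₁ n (by omega)).1, hn₂ n (by omega)⟩⟩

end Vale.Agent.Results.P321.TwoSided
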